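import Mathlib
import Vale.Agent.P141.Numeric

open Finset

namespace Vale.Agent.P141

/-- configuration data: the weights -/
def cN : Fin 20 → ℕ :=
  ![1, 7, 11, 2, 32, 89, 64, 35, 156, 180, 59, 78, 142, 75, 9, 29, 24, 4, 2, 1]

/-- configuration data -/
def cC : Fin 20 → ℤ := ![0, 0, 0, 1, 1, 1, 1, 2, 2, 2, 2, 3, 3, 3, 3, 4, 4, 4, 5, 5]

/-- configuration data -/
def cB : Fin 20 → ℤ := ![6, 5, 4, 7, 6, 5, 4, 7, 6, 5, 4, 7, 6, 5, 4, 7, 6, 5, 7, 6]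

/-- the points `x` -/
def cX (i : Fin 20) : ℤ := 4 * cC i - cB i

/-- the differences `t` -/
def cT (i : Fin 20) : ℤ := 2 * cC i - cB i

lemma cX_inj : Function.Injective cX := by decide +kernel

lemma cN_pos : ∀ i, 0 < cN i := by decide +kernel

lemma cN_sum : ∑ i, cN i = 1000 := by decide +kernel

lemma ineq1 : 1000 ^ ((250 - 133) * 1000) * (∏ i, (cN i) ^ (cN i)) ^ 133 <
    (∏ i, (margN cN (fun i => cX i - 1 * cT i) (cX i - 1 * cT i)) ^ (cN i)) ^ 250 := by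
  decide +kernel

lemma ineq2 : 1000 ^ ((250 - 133) * 1000) * (∏ i, (cN i) ^ (cN i)) ^ 133 <
    (∏ i, (margN cN (fun i => cX i - 2 * cT i) (cX i - 2 * cT i)) ^ (cN i)) ^ 250 := by
  decide +kernel

lemma ineq3 : 1000 ^ ((250 - 133) * 1000) * (∏ i, (cN i) ^ (cN i)) ^ 133 <
    (∏ i, (margN cN (fun i => cX i - 3 * cT i) (cX i - 3 * cT i)) ^ (cN i)) ^ 250 := by
  decide +kernel

/-- four by four grid, first coordinate -/
def gU : Fin 16 → ℤ := ![0, 0, 0, 0, 1, 1, 1, 1, 2, 2, 2, 2, 3, 3, 3, 3]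

/-- four by four grid, second coordinate -/
def gV : Fin 16 → ℤ := ![0, 1, 2, 3, 0, 1, 2, 3, 0, 1, 2, 3, 0, 1, 2, 3]

/-- three by three grid, first coordinate -/
def hU : Fin 9 → ℤ := ![0, 0, 0, 1, 1, 1, 2, 2, 2]

/-- three by three grid, second coordinate -/
def hV : Fin 9 → ℤ := ![0, 1, 2, 0, 1, 2, 0, 1, 2]

/-- constant weights -/
def one16 : Fin 16 → ℕ := fun _ => 1

/-- constant weights -/
def one9 : Fin 9 → ℕ := fun _ => 1

/-- points, pair (1,2) -/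
def aX (i : Fin 16) : ℤ := 4 * gU i - gV i
/-- differences, pair (1,2) -/
def aT (i : Fin 16) : ℤ := 2 * gU i - gV i
/-- points, pair (2,3) -/
def bX (i : Fin 16) : ℤ := 3 * gU i - 4 * gV i
/-- differences, pair (2,3) -/
def bT (i : Fin 16) : ℤ := gU i - 2 * gV i
/-- points, pair (1,3) -/
def dX (i : Fin 9) : ℤ := 3 * hU i - hV i
/-- differences, pair (1,3) -/
def dT (i : Fin 9) : ℤ := hU i - hV i

lemma aX_inj : Function.Injective aX := by decide +kernel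
lemma bX_inj : Function.Injective bX := by decide +kernel
lemma dX_inj : Function.Injective dX := by decide +kernel
lemma one16_pos : ∀ i, 0 < one16 i := by decide
lemma one9_pos : ∀ i, 0 < one9 i := by decide
lemma one16_lt : ∀ i, one16 i < 16 := by decide
lemma one9_lt : ∀ i, one9 i < 9 := by decide
lemma one16_sum : ∑ i, one16 i = 16 := by decide +kernel
lemma one9_sum : ∑ i, one9 i = 9 := by decide +kernel

lemma a1 : 16 ^ ((2 - 1) * 16) * (∏ i, (one16 i) ^ (one16 i)) ^ 1 ≤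
    (∏ i, (margN one16 (fun i => aX i - 1 * aT i) (aX i - 1 * aT i)) ^ (one16 i)) ^ 2 := by
  decide +kernel
lemma a2 : 16 ^ ((2 - 1) * 16) * (∏ i, (one16 i) ^ (one16 i)) ^ 1 ≤
    (∏ i, (margN one16 (fun i => aX i - 2 * aT i) (aX i - 2 * aT i)) ^ (one16 i)) ^ 2 := by
  decide +kernel
lemma a3 : 16 ^ ((10 - 7) * 16) * (∏ i, (one16 i) ^ (one16 i)) ^ 7 ≤
    (∏ i, (margN one16 (fun i => aX i - 3 * aT i) (aX i - 3 * aT i)) ^ (one16 i)) ^ 10 := by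
  decide +kernel
lemma b1 : 16 ^ ((10 - 7) * 16) * (∏ i, (one16 i) ^ (one16 i)) ^ 7 ≤
    (∏ i, (margN one16 (fun i => bX i - 1 * bT i) (bX i - 1 * bT i)) ^ (one16 i)) ^ 10 := by
  decide +kernel
lemma b2 : 16 ^ ((2 - 1) * 16) * (∏ i, (one16 i) ^ (one16 i)) ^ 1 ≤
    (∏ i, (margN one16 (fun i => bX i - 2 * bT i) (bX i - 2 * bT i)) ^ (one16 i)) ^ 2 := by
  decide +kernel
lemma b3 : 16 ^ ((2 - 1) * 16) * (∏ i, (one16 i) ^ (one16 i)) ^ 1 ≤
    (∏ i, (margN one16 (fun i => bX i - 3 * bT i) (bX i - 3 * bT i)) ^ (one16 i)) ^ 2 := by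
  decide +kernel
lemma d1 : 9 ^ ((2 - 1) * 9) * (∏ i, (one9 i) ^ (one9 i)) ^ 1 ≤
    (∏ i, (margN one9 (fun i => dX i - 1 * dT i) (dX i - 1 * dT i)) ^ (one9 i)) ^ 2 := by
  decide +kernel
lemma d2 : 9 ^ ((10 - 7) * 9) * (∏ i, (one9 i) ^ (one9 i)) ^ 7 ≤
    (∏ i, (margN one9 (fun i => dX i - 2 * dT i) (dX i - 2 * dT i)) ^ (one9 i)) ^ 10 := by
  decide +kernel
lemma d3 : 9 ^ ((2 - 1) * 9) * (∏ i, (one9 i) ^ (one9 i)) ^ 1 ≤
    (∏ i, (margN one9 (fun i => dX i - 3 * dT i) (dX i - 3 * dT i)) ^ (one9 i)) ^ 2 := by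
  decide +kernel

end Vale.Agent.P141
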